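import Mathlib
import Vale.Agent.H66.Wedge4
import Vale.Agent.H66.T4Defs
import Vale.Agent.H66.T4Rot
import Vale.Agent.H66.T4RotDef
import Vale.Agent.H66.T4TriGen
import Vale.Agent.H66.T4AccMain

/-!
# P247: two classes of hypersymplectic triples on the four-torus with a hyperkaehler deformation

Forms on the torus `ℝ⁴/ℤ⁴` are written as `ℤ⁴`-periodic forms on `ℝ⁴`.  A triple of closed
periodic two-forms is hypersymplectic when the matrix of the coefficients of the pairwise
wedge products with respect to `dx⁰ ∧ dx¹ ∧ dx² ∧ dx³` is positive definite at every point.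

Let `θ` be any hyperkaehler triple on the torus and let `w` be a hypersymplectic triple with
`w i` cohomologous to `θ i`.  Then `w` has a cohomologous deformation to a hyperkaehler triple
in each of the following two cases.

* Cone condition: for one constant invertible matrix `K` the wedge pairing of `∑ v i • w i`
  with `∑ v i • ∑ k, K i k • θ k` is nonnegative at every point for every `v` in `ℝ³`.
* Triangular condition: for one constant orthogonal matrix `R` the wedge product of
  `∑ k, R i k • w k` with `∑ k, R j k • θ k` vanishes at every point for all `i < j`.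
-/

namespace Vale.Agent.Results.P247.A000_TriangularOrAccretive

open scoped ContDiff
open Vale.Agent.H66

theorem result (θ w : Fin 3 → (Fin 4 → ℝ) → (Fin 4 → ℝ) [⋀^Fin 2]→L[ℝ] ℝ)
    (hθ : IsHyperkahler θ)
    (hw : IsHypersymplectic w)
    (hcoh : ∀ i, Cohomologous (w i) (θ i))
    (h : (∃ K : Matrix (Fin 3) (Fin 3) ℝ, K.det ≠ 0 ∧
            ∀ (x : Fin 4 → ℝ) (v : Fin 3 → ℝ),
              0 ≤ wedge4 (∑ i, v i • w i x) (∑ i, v i • ∑ k, K i k • θ k x)) ∨
         (∃ R : Matrix (Fin 3) (Fin 3) ℝ, R * R.transpose = 1 ∧
            ∀ i j, i < j → ∀ x,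
              wedge4 (∑ k, R i k • w k x) (∑ k, R j k • θ k x) = 0)) :
    HasHyperkahlerDeformation w := by
  rcases h with ⟨K, hK, hacc⟩ | ⟨R, hR, htri⟩
  · exact accretive_deformation θ w K hK hθ hw hcoh hacc
  · exact hasDeformation_of_rotTriple R hR w
      (triangular_deformation_gen (rotTriple R θ) (rotTriple R w)
        (rotTriple_isHyperkahler R hR θ hθ) (rotTriple_isHypersymplectic R hR w hw)
        (rotTriple_cohomologous R w θ hcoh) htri)

end Vale.Agent.Results.P247.A000_TriangularOrAccretive
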