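import Mathlib
import Vale.Agent.H66.Wedge4
import Vale.Agent.H66.T4Defs
import Vale.Agent.H66.T4Rot
import Vale.Agent.H66.T4RotDef
import Vale.Agent.H66.T4TriGen

/-!
# P247: hypersymplectic triples on the four-torus that are triangular in some frame

Forms on the torus `ℝ⁴/ℤ⁴` are written as `ℤ⁴`-periodic forms on `ℝ⁴`.  A triple of closed
periodic two-forms is hypersymplectic when the matrix of the coefficients of the pairwise
wedge products with respect to `dx⁰ ∧ dx¹ ∧ dx² ∧ dx³` is positive definite at every point.

Let `θ` be any hyperkaehler triple on the torus and let `w` be a hypersymplectic triple with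
`w i` cohomologous to `θ i`.  Suppose that for one constant orthogonal matrix `R` the rotated
triples `R w` and `R θ` (members `∑ k, R i k • w k` and `∑ k, R i k • θ k`) have vanishing wedge
product of the `i`-th member of `R w` with the `j`-th member of `R θ` at every point, for all
`i < j`.  Then `w` has a cohomologous deformation to a hyperkaehler triple.  In the rotated frame the deformation
runs through three linear stages (the third, the second and then the first form are moved to
those of the hyperkaehler triple).
-/

namespace Vale.Agent.Results.P247.A00_TriangularHyperkahler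

open scoped ContDiff
open Vale.Agent.H66

theorem result (θ w : Fin 3 → (Fin 4 → ℝ) → (Fin 4 → ℝ) [⋀^Fin 2]→L[ℝ] ℝ)
    (R : Matrix (Fin 3) (Fin 3) ℝ) (hR : R * R.transpose = 1)
    (hθ : IsHyperkahler θ)
    (hw : IsHypersymplectic w)
    (hcoh : ∀ i, Cohomologous (w i) (θ i))
    (htri : ∀ i j, i < j → ∀ x,
      wedge4 (∑ k, R i k • w k x) (∑ k, R j k • θ k x) = 0) :
    HasHyperkahlerDeformation w :=
  hasDeformation_of_rotTriple R hR w
    (triangular_deformation_gen (rotTriple R θ) (rotTriple R w)
      (rotTriple_isHyperkahler R hR θ hθ) (rotTriple_isHypersymplectic R hR w hw)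
      (rotTriple_cohomologous R w θ hcoh) htri)

end Vale.Agent.Results.P247.A00_TriangularHyperkahler
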