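import Mathlib
import Vale.Agent.H66.Wedge4
import Vale.Agent.H66.T4Defs
import Vale.Agent.H66.T4AccMain

/-!
# P247: accretive hypersymplectic triples on the four-torus

Forms on the torus `ℝ⁴/ℤ⁴` are written as `ℤ⁴`-periodic forms on `ℝ⁴`.  A triple of closed
periodic two-forms is hypersymplectic when the matrix of the coefficients of the pairwise
wedge products with respect to `dx⁰ ∧ dx¹ ∧ dx² ∧ dx³` is positive definite at every point.

Let `θ` be any hyperkaehler triple on the torus and let `w` be a hypersymplectic triple with
`w i` cohomologous to `θ i`.  Suppose that for one constant invertible matrix `K` the wedge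
pairing of `∑ v i • w i` with `∑ v i • ∑ k, K i k • θ k` is nonnegative at every point for every
`v` in `ℝ³` (for `K = 1`: the symmetric part of the matrix `w i ∧ θ j` is positive semidefinite
at every point).  Then `w` has a cohomologous deformation to a hyperkaehler triple: the
straight segment from `w` to the triple `K θ` with members `∑ k, K i k • θ k`, renormalised by
the inverse of the constant matrix `M s`, where `M s = (1 - s) • 1 + s • K`.
-/

namespace Vale.Agent.Results.P247.A01_AccretiveHyperkahler

open scoped ContDiff
open Vale.Agent.H66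

theorem result (θ w : Fin 3 → (Fin 4 → ℝ) → (Fin 4 → ℝ) [⋀^Fin 2]→L[ℝ] ℝ)
    (K : Matrix (Fin 3) (Fin 3) ℝ) (hK : K.det ≠ 0)
    (hθ : IsHyperkahler θ)
    (hw : IsHypersymplectic w)
    (hcoh : ∀ i, Cohomologous (w i) (θ i))
    (hacc : ∀ (x : Fin 4 → ℝ) (v : Fin 3 → ℝ),
      0 ≤ wedge4 (∑ i, v i • w i x) (∑ i, v i • ∑ k, K i k • θ k x)) :
    HasHyperkahlerDeformation w :=
  accretive_deformation θ w K hK hθ hw hcoh hacc

end Vale.Agent.Results.P247.A01_AccretiveHyperkahler
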