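import Mathlib
import Vale.Agent.H66.Wedge4
import Vale.Agent.H66.T4Defs
import Vale.Agent.H66.T4TriMain

/-!
# P247: triangular hypersymplectic triples on the four-torus

Forms on the torus `ℝ⁴/ℤ⁴` are written as `ℤ⁴`-periodic forms on `ℝ⁴`.  A triple of closed
periodic two-forms is hypersymplectic when the matrix of the coefficients of the pairwise
wedge products with respect to `dx⁰ ∧ dx¹ ∧ dx² ∧ dx³` is positive definite at every point.

Let `e i` be constant two-forms with `e i ∧ e j = lam δ_ij dx⁰ ∧ dx¹ ∧ dx² ∧ dx³`, `lam > 0`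
(a flat hyperkaehler triple), and let `w` be a hypersymplectic triple with `w i` cohomologous
to `e i`.  If `w i ∧ e j = 0` at every point for all `i < j`, then `w` has a cohomologous
deformation to a hyperkaehler triple.  The deformation runs through three linear stages
(the third, the second and then the first form are moved to the flat ones).
-/

namespace Vale.Agent.Results.P247.A0_TriangularFlatTorus

open scoped ContDiff
open Vale.Agent.H66

theorem result (e : Fin 3 → (Fin 4 → ℝ) [⋀^Fin 2]→L[ℝ] ℝ) (lam : ℝ)
    (w : Fin 3 → (Fin 4 → ℝ) → (Fin 4 → ℝ) [⋀^Fin 2]→L[ℝ] ℝ)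
    (hlam : 0 < lam)
    (he : ∀ i j, wedge4 (e i) (e j) = if i = j then lam else 0)
    (hw : IsHypersymplectic w)
    (hcoh : ∀ i, Cohomologous (w i) (fun _ => e i))
    (htri : ∀ i j, i < j → ∀ x, wedge4 (w i x) (e j) = 0) :
    HasHyperkahlerDeformation w :=
  triangular_deformation e lam w hlam he hw hcoh htri

end Vale.Agent.Results.P247.A0_TriangularFlatTorus
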