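import Mathlib
import Vale.Agent.H66.Wedge4
import Vale.Agent.H66.T4Defs
import Vale.Agent.H66.T4Main

/-!
# P247: rank-one perturbations of flat hyperkaehler triples on the four-torus

Forms on the torus `ℝ⁴/ℤ⁴` are written as `ℤ⁴`-periodic forms on `ℝ⁴`.  A triple of closed
periodic two-forms is hypersymplectic when the matrix of the coefficients of the pairwise
wedge products with respect to `dx⁰ ∧ dx¹ ∧ dx² ∧ dx³` is positive definite at every point.

Let `e i` be constant two-forms with `e i ∧ e j = lam δ_ij dx⁰ ∧ dx¹ ∧ dx² ∧ dx³`, `lam > 0`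
(a flat hyperkaehler triple), let `c : Fin 3 → ℝ` and let `β` be a smooth periodic one-form.
If the triple `e i + c i • dβ` is hypersymplectic, then it has a cohomologous deformation
to a hyperkaehler triple.
-/

namespace Vale.Agent.Results.P247.A_RankOneFlatTorus

open scoped ContDiff
open Vale.Agent.H66

theorem result (e : Fin 3 → (Fin 4 → ℝ) [⋀^Fin 2]→L[ℝ] ℝ) (lam : ℝ)
    (c : Fin 3 → ℝ) (β : (Fin 4 → ℝ) → (Fin 4 → ℝ) [⋀^Fin 1]→L[ℝ] ℝ)
    (hlam : 0 < lam)
    (he : ∀ i j, wedge4 (e i) (e j) = if i = j then lam else 0)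
    (hβ : ContDiff ℝ ∞ β) (hper : Periodic4 β)
    (hw : IsHypersymplectic (rankOnePert e c β)) :
    HasHyperkahlerDeformation (rankOnePert e c β) :=
  rankOne_deformation e lam c β hlam he hβ hper hw

end Vale.Agent.Results.P247.A_RankOneFlatTorus
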